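import Vale.Agent.P024.ALL.Spec
import Vale.Agent.P024.H644.K12

/-!
Block (F): a homomorphism is induced if the decomposition groups of sufficiently many primes act
trivially on the roots of unity of order `p` on both sides.
-/

namespace Vale.Agent.P024.H157.ALL

open scoped NumberField ENNReal Topology
open IsDedekindDomain NumberField Filter Vale.Agent.P024

section

variable {F E : Type*} [Field F] [Field E] [Algebra F E]

/-- The decomposition group at a prime above `r` acts trivially on the roots of unity of order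
dividing `r - 1`. -/
theorem stab_root {r p : ℕ} (hr : r.Prime) (hp : p.Prime) (hpr : p ∣ r - 1)
    (O : ValuationSubring E) (hrO : (r : E) ∈ O.nonunits) (s : E ≃ₐ[F] E) (hs : Stab O s) :
    ∀ z : E, z ^ p = 1 → s z = z := by
  intro z hz
  have hrf : Fact r.Prime := ⟨hr⟩
  have hpO : (p : E) ∉ O.nonunits := by
    intro h
    refine not_mem_nonunits_of_coprime O ?_ h hrO
    refine (Nat.coprime_primes hp hr).2 ?_
    rintro rfl
    have := Nat.le_of_dvd (by have := hp.two_le; omega) hpr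
    have := hp.two_le
    omega
  have hv : O.valuation z = 1 := by
    have h1 : O.valuation z ^ p = 1 := by rw [← map_pow, hz, map_one]
    exact (pow_eq_one_iff_of_nonneg zero_le hp.ne_zero).1 h1
  have hzO : z ∈ O := mem_of_val_eq_one O hv
  have hz0 : z ≠ 0 := by
    rintro rfl
    rw [map_zero] at hv
    exact zero_ne_one hv
  let k := IsLocalRing.ResidueField O
  have hk : ((r : ℕ) : k) = 0 := by
    have h1 : (r : E) ∈ O := O.nonunits_le hrO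
    have h2 : ((r : ℕ) : O) ∈ IsLocalRing.maximalIdeal O := by
      rw [IsLocalRing.mem_maximalIdeal]
      intro hu
      have h3 := (O.valuation_eq_one_iff _).1 hu
      rw [ValuationSubring.mem_nonunits_iff] at hrO
      have h4 : (((r : ℕ) : O) : E) = (r : E) := by push_cast; rfl
      rw [h4] at h3
      rw [h3] at hrO
      exact lt_irrefl _ hrO
    have h5 := (IsLocalRing.residue_eq_zero_iff ((r : ℕ) : O)).2 h2
    rwa [map_natCast] at h5
  have hchar : CharP k r := (CharP.charP_iff_prime_eq_zero hr).mpr hk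
  have hpow : (IsLocalRing.residue O ⟨z, hzO⟩) ^ r = IsLocalRing.residue O ⟨z, hzO⟩ := by
    obtain ⟨m, hm⟩ := hpr
    have h1 : r = p * m + 1 := by have := hr.one_le; omega
    have h2 : (⟨z, hzO⟩ : O) ^ r = ⟨z, hzO⟩ := by
      apply Subtype.ext
      push_cast
      conv_lhs => rw [h1]
      rw [pow_succ, pow_mul, hz, one_pow, one_mul]
    rw [← map_pow, h2]
  have hbot := (Subfield.mem_bot_iff_pow_eq_self k r).2 hpow
  obtain ⟨c, hc⟩ := (mem_bot_iff_intCast r k).1 hbot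
  have hzc : z - (c : E) ∈ O.nonunits := by
    have h1 : (⟨z, hzO⟩ : O) - (c : O) ∈ IsLocalRing.maximalIdeal O := by
      rw [← IsLocalRing.residue_eq_zero_iff, map_sub, map_intCast, ← hc, sub_self]
    rw [ValuationSubring.mem_nonunits_iff]
    have h2 := (O.valuation_lt_one_iff _).1 h1
    push_cast at h2
    exact h2
  have hnon : ∀ x, x ∈ O.nonunits → s x ∈ O.nonunits := by
    intro x hx
    rw [nonunits_iff] at hx ⊢
    rcases hx with hx | hx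
    · left; rw [hx, map_zero]
    · right
      rw [← map_inv₀, hs]
      exact hx
  have h1 := hnon _ hzc
  rw [map_sub, map_intCast] at h1
  have h2 : s z - z ∈ O.nonunits := by
    have e : s z - z = (s z - (c : E)) - (z - (c : E)) := by ring
    rw [e]
    exact O.nonunits.sub_mem h1 hzc
  have h3 : s z / z - 1 ∈ O.nonunits := by
    have e : s z / z - 1 = z⁻¹ * (s z - z) := by field_simp
    rw [e]
    refine Near.mul_mem_nonunits ?_ h2
    rw [map_inv₀, hv, inv_one]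
  have h4 := root_eq_one O p hpO (s z / z) (by
    rw [div_pow, ← map_pow, hz, map_one, div_one]) h3
  rwa [div_eq_one_iff_eq hz0] at h4

end

section

variable {F₁ E₁ F₂ E₂ : Type*} [Field F₁] [NumberField F₁] [Field E₁] [Algebra F₁ E₁]
    [IsGalois F₁ E₁] [Field F₂] [NumberField F₂] [Field E₂] [Algebra F₂ E₂] [IsGalois F₂ E₂]

/-- The primes of norm `1` modulo `p` at which the image of the decomposition group acts trivially
on the roots of unity of order `p`. -/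
def Good (α : (E₁ ≃ₐ[F₁] E₁) →* (E₂ ≃ₐ[F₂] E₂)) (p : ℕ) : Set (HeightOneSpectrum (𝓞 F₁)) :=
  {v | (p : 𝓞 F₁) ∉ v.asIdeal ∧ Ideal.absNorm v.asIdeal ≡ 1 [MOD p] ∧
    ∃ O : ValuationSubring E₁, O ≠ ⊤ ∧ IsCenter O v ∧
      ∀ s : E₁ ≃ₐ[F₁] E₁, Stab O s → ∀ z : E₂, z ^ p = 1 → α s z = z}

omit [NumberField F₂] [IsGalois F₂ E₂] in
theorem Good.stab {α : (E₁ ≃ₐ[F₁] E₁) →* (E₂ ≃ₐ[F₂] E₂)} {p : ℕ}
    {v : HeightOneSpectrum (𝓞 F₁)} (h : v ∈ Good α p) (O' : ValuationSubring E₁) (hO' : O' ≠ ⊤)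
    (hv' : IsCenter O' v) (s : E₁ ≃ₐ[F₁] E₁) (hs : Stab O' s) :
    ∀ z : E₂, z ^ p = 1 → α s z = z := by
  have : CharZero E₁ := charZero_of_injective_algebraMap (algebraMap F₁ E₁).injective
  have : Algebra.IsAlgebraic ℚ E₁ := Algebra.IsAlgebraic.trans ℚ F₁ E₁
  obtain ⟨-, -, O, hO, hv, hst⟩ := h
  obtain ⟨g, hg⟩ := exists_conj (M := F₁) O O' hO hO' (by
    intro x
    rw [(mem_iff_of_center O hO v hv x).1, (mem_iff_of_center O' hO' v hv' x).1])
  intro z hz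
  have h1 : Stab O (g⁻¹ * s * g) := by
    intro x
    have e : ∀ y, g⁻¹ y ∈ O ↔ y ∈ O' := by
      intro y
      rw [← hg, ← AlgEquiv.mul_apply, mul_inv_cancel, AlgEquiv.one_apply]
    rw [AlgEquiv.mul_apply, AlgEquiv.mul_apply, e, hs, hg]
  have h2 := hst _ h1 ((α g)⁻¹ z) (by rw [← map_pow, hz, map_one])
  rw [map_mul, map_mul, map_inv, AlgEquiv.mul_apply, AlgEquiv.mul_apply] at h2
  have h3 : (α g) ((α g)⁻¹ z) = z := by
    rw [← AlgEquiv.mul_apply, mul_inv_cancel, AlgEquiv.one_apply]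
  rw [h3] at h2
  exact ((α g)⁻¹ : E₂ ≃ₐ[F₂] E₂).injective h2

theorem exists_open_power_good (hE₁ : SolvablyClosed E₁) (hE₂ : SolvablyClosed E₂)
    (α : (E₁ ≃ₐ[F₁] E₁) →* (E₂ ≃ₐ[F₂] E₂)) (hα : Continuous α)
    {p : ℕ} (hp : p.Prime) (hp2 : p ≠ 2) {δ : ℝ} (hδ : 0 < δ)
    (hG : ∃ᶠ s : ℝ in 𝓝[>] 1, ENNReal.ofReal (δ / (p - 1) * Real.log (1 / (s - 1))) ≤
      ∑' v : Good α p, ENNReal.ofReal (nm F₁ v.1 s))
    (m : ℕ) (hm : 0 < m) (hδm : (Module.finrank ℚ F₁ : ℝ) / m < δ) (g : E₁ ≃ₐ[F₁] E₁)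
    (hg : ∀ z : E₁, z ^ p = 1 → g z = z) :
    ∃ i : ℕ, 0 < i ∧ i < m ∧ ∀ z : E₂, z ^ p = 1 → α (g ^ i) z = z := by
  classical
  have : CharZero E₁ := charZero_of_injective_algebraMap (algebraMap F₁ E₁).injective
  have : CharZero E₂ := charZero_of_injective_algebraMap (algebraMap F₂ E₂).injective
  have : Algebra.IsAlgebraic ℚ E₁ := Algebra.IsAlgebraic.trans ℚ F₁ E₁
  have : Algebra.IsAlgebraic ℚ E₂ := Algebra.IsAlgebraic.trans ℚ F₂ E₂
  have hnz : NeZero p := ⟨hp.ne_zero⟩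
  obtain ⟨ζ₁, hζ₁⟩ := hE₁.exists_primitiveRoot p hp.pos
  obtain ⟨ζ₂, hζ₂⟩ := hE₂.exists_primitiveRoot p hp.pos
  let W : Subgroup (E₁ ≃ₐ[F₁] E₁) :=
    (MulAction.stabilizer (E₂ ≃ₐ[F₂] E₂) ζ₂).comap α ⊓ MulAction.stabilizer (E₁ ≃ₐ[F₁] E₁) ζ₁
  have hWo : IsOpen (W : Set (E₁ ≃ₐ[F₁] E₁)) := by
    have h1 : IsOpen ((MulAction.stabilizer (E₂ ≃ₐ[F₂] E₂) ζ₂ : Subgroup (E₂ ≃ₐ[F₂] E₂)) :
      Set (E₂ ≃ₐ[F₂] E₂)) := stabilizer_isOpen_of_isIntegral (K := F₂) (L := E₂) ζ₂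
    have h2 : IsOpen ((MulAction.stabilizer (E₁ ≃ₐ[F₁] E₁) ζ₁ : Subgroup (E₁ ≃ₐ[F₁] E₁)) :
      Set (E₁ ≃ₐ[F₁] E₁)) := stabilizer_isOpen_of_isIntegral (K := F₁) (L := E₁) ζ₁
    exact (h1.preimage hα).inter h2
  have hW : ∀ g : E₁ ≃ₐ[F₁] E₁, g ∈ W ↔ α g ζ₂ = ζ₂ ∧ g ζ₁ = ζ₁ := fun g => Iff.rfl
  obtain ⟨D, h, hD, hh⟩ := exists_conjugates (F := F₁) hp hζ₁
  by_contra hcon
  push Not at hcon
  have hcon' : ∀ i : ℕ, 0 < i → i < m → α (g ^ i) ζ₂ ≠ ζ₂ := by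
    intro i hi him h
    obtain ⟨z, hz, hz'⟩ := hcon i hi him
    apply hz'
    obtain ⟨k, -, rfl⟩ := hζ₂.eq_pow_of_pow_eq_one hz
    rw [map_pow, h]
  have hgroot : ∀ (i : ℕ) (z : E₁), z ^ p = 1 → (g ^ i) z = z := by
    intro i z hz
    induction i with
    | zero => simp
    | succ i ih => rw [pow_succ', AlgEquiv.mul_apply, ih, hg z hz]
  have hgroot' : ∀ (i : ℕ) (z : E₁), z ^ p = 1 → (g ^ i)⁻¹ z = z := by
    intro i z hz
    conv_lhs => rw [← hgroot i z hz]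
    rw [← AlgEquiv.mul_apply, inv_mul_cancel, AlgEquiv.one_apply]
  have hDpos : 0 < D := by
    rcases Nat.eq_zero_or_pos D with h0 | h0
    · rw [h0, mul_zero] at hD
      have := hp.two_le
      omega
    · exact h0
  -- the family of elements in different classes
  let x : Fin m × Fin D → (E₁ ≃ₐ[F₁] E₁) := fun c => g ^ (c.1 : ℕ) * (h c.2)⁻¹
  have hx : ∀ c d : Fin m × Fin D, c ≠ d → x d * (x c)⁻¹ ∉ W := by
    intro c d hcd hmem
    have e : x d * (x c)⁻¹ = g ^ (d.1 : ℕ) * (h d.2)⁻¹ * h c.2 * (g ^ (c.1 : ℕ))⁻¹ := by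
      show g ^ (d.1 : ℕ) * (h d.2)⁻¹ * (g ^ (c.1 : ℕ) * (h c.2)⁻¹)⁻¹ = _
      group
    rw [e, hW] at hmem
    obtain ⟨hm2, hm1⟩ := hmem
    rw [AlgEquiv.mul_apply, AlgEquiv.mul_apply, AlgEquiv.mul_apply,
      hgroot' _ ζ₁ hζ₁.pow_eq_one, hgroot _ _ (by
        rw [← map_pow, ← map_pow, hζ₁.pow_eq_one, map_one, map_one])] at hm1
    have h1 : h c.2 ζ₁ = h d.2 ζ₁ := by
      have h2 := congrArg (fun y => h d.2 y) hm1
      rwa [← AlgEquiv.mul_apply, mul_inv_cancel, AlgEquiv.one_apply] at h2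
    have h2 : c.2 = d.2 := by
      by_contra hne
      exact hh _ _ hne h1
    have h3 : c.1 ≠ d.1 := by
      intro h3
      exact hcd (Prod.ext h3 h2)
    have h4 : g ^ (d.1 : ℕ) * (h d.2)⁻¹ * h c.2 * (g ^ (c.1 : ℕ))⁻¹ =
        g ^ (d.1 : ℕ) * (g ^ (c.1 : ℕ))⁻¹ := by
      rw [h2, inv_mul_cancel_right]
    rw [h4] at hm2
    rcases lt_or_gt_of_ne h3 with h5 | h5
    · have h5' : (c.1 : ℕ) < d.1 := h5
      have h6 : g ^ (d.1 : ℕ) * (g ^ (c.1 : ℕ))⁻¹ = g ^ ((d.1 : ℕ) - c.1) := by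
        rw [mul_inv_eq_iff_eq_mul, ← pow_add]
        congr 1
        omega
      rw [h6] at hm2
      exact hcon' _ (by omega) (by have := d.1.2; omega) hm2
    · have h5' : (d.1 : ℕ) < c.1 := h5
      have h6 : g ^ (d.1 : ℕ) * (g ^ (c.1 : ℕ))⁻¹ = (g ^ ((c.1 : ℕ) - d.1))⁻¹ := by
        rw [mul_inv_eq_iff_eq_mul, eq_inv_mul_iff_mul_eq, ← pow_add]
        congr 1
        omega
      rw [h6, map_inv] at hm2
      refine hcon' ((c.1 : ℕ) - d.1) (by omega) (by have := c.1.2; omega) ?_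
      conv_lhs => rw [← hm2]
      rw [← AlgEquiv.mul_apply, mul_inv_cancel, AlgEquiv.one_apply]
  have h1 := index_bound W hWo (Good α p) (δ / (p - 1)) hG ∅ Set.finite_empty ?_ (m * D)
    (Nat.mul_pos hm hDpos) (fun i => x (finProdFinEquiv.symm i)) ?_
  · have hp1 : (0 : ℝ) < (p : ℝ) - 1 := by
      have : (1 : ℝ) < p := by exact_mod_cast hp.one_lt
      linarith
    have hm' : (0 : ℝ) < m := by exact_mod_cast hm
    have hD' : (0 : ℝ) < D := by exact_mod_cast hDpos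
    rw [div_le_div_iff₀ hp1 (by positivity)] at h1
    rw [div_lt_iff₀ hm'] at hδm
    have h2 : ((p : ℝ) - 1) ≤ Module.finrank ℚ F₁ * D := by
      have h3 : ((p - 1 : ℕ) : ℝ) ≤ ((Module.finrank ℚ F₁ * D : ℕ) : ℝ) := by exact_mod_cast hD
      rw [Nat.cast_sub hp.one_le] at h3
      push_cast at h3
      exact h3
    push_cast at h1
    have h4 : (Module.finrank ℚ F₁ : ℝ) * D < δ * m * D := by
      exact mul_lt_mul_of_pos_right hδm hD'
    linarith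
  · rintro v hv - O hO hOv s hs hs'
    rw [hW]
    have hlO := natCast_pow_notMem_nonunits hOv hv.1
    have hlO1 : (p : E₁) ∉ O.nonunits := by simpa using hlO 1
    constructor
    · exact Good.stab hv O hO hOv s hs ζ₂ hζ₂.pow_eq_one
    · rw [acts_on_root O s _ hs' p hlO1 ζ₁ hζ₁.pow_eq_one]
      conv_rhs => rw [← pow_one ζ₁]
      exact (rootPow_eq_iff_modEq hζ₁ _ _ hp.pos).2 hv.2.1
  · intro i j hij
    exact hx _ _ (fun hcon => hij (finProdFinEquiv.symm.injective hcon))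

theorem induced_of_good (hE₁ : SolvablyClosed E₁) (hE₂ : SolvablyClosed E₂)
    (α : (E₁ ≃ₐ[F₁] E₁) →* (E₂ ≃ₐ[F₂] E₂)) (hα : Continuous α) (hopen : IsOpen (Set.range α))
    (Q : Set ℕ) (hQ : MeetsSplit Q) {δ : ℝ} (hδ : 0 < δ)
    (h : ∀ p : ℕ, p.Prime → p ∈ Q → ∃ᶠ s : ℝ in 𝓝[>] 1,
      δ / (p - 1) * Real.log (1 / (s - 1)) ≤
        ∑' v : Good α p, (Ideal.absNorm v.1.asIdeal : ℝ) ^ (-s)) :
    ∃ j : E₂ →+* E₁, ∀ (g : E₁ ≃ₐ[F₁] E₁) (x : E₂), g (j x) = j ((α g) x) := by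
  have : CharZero E₁ := charZero_of_injective_algebraMap (algebraMap F₁ E₁).injective
  have : CharZero E₂ := charZero_of_injective_algebraMap (algebraMap F₂ E₂).injective
  obtain ⟨m, hm⟩ := exists_nat_gt ((Module.finrank ℚ F₁ : ℝ) / δ)
  obtain ⟨l, hlm, hl⟩ := Nat.exists_infinite_primes (m + 3)
  have hl2 : l ≠ 2 := by omega
  have hl0 : (0 : ℝ) < l := by exact_mod_cast hl.pos
  have hlδ : (Module.finrank ℚ F₁ : ℝ) / l < δ := by
    rw [div_lt_iff₀ hδ] at hm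
    rw [div_lt_iff₀ hl0]
    have h1 : (m : ℝ) ≤ l := by
      have : m ≤ l := by omega
      exact_mod_cast this
    nlinarith
  refine induced_of_kerQ_B hE₁ hE₂ α hα hopen hl hl2 ⊤ isOpen_univ Q hQ ?_
  intro g _ p a b hp hpQ hlp ha hb ha1
  have hp2 : p ≠ 2 := by
    rintro rfl
    have := Nat.le_of_dvd (by norm_num) hlp
    omega
  have hp1 : (0 : ℝ) < (p : ℝ) - 1 := by
    have : (1 : ℝ) < p := by exact_mod_cast hp.one_lt
    linarith
  obtain ⟨ζ₁, hζ₁⟩ := hE₁.exists_primitiveRoot p hp.pos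
  obtain ⟨ζ₂, hζ₂⟩ := hE₂.exists_primitiveRoot p hp.pos
  have hbc : b.Coprime p := exponent_coprime hE₂ (α g) hp.pos hb
  obtain ⟨M, hM⟩ := hlp
  have hMl : (p - 1) / l = M := by rw [hM, Nat.mul_div_cancel_left _ hl.pos]
  rw [hMl] at ha1 ⊢
  have hnz : NeZero p := ⟨hp.ne_zero⟩
  obtain ⟨i, hi0, hil, hi⟩ := exists_open_power_good hE₁ hE₂ α hα hp hp2 hδ
    (frequently_ofReal F₁ _ (div_pos hδ hp1) (h p hp hpQ)) l hl.pos hlδ (g ^ M) (by
      intro z hz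
      obtain ⟨k, -, rfl⟩ := hζ₁.eq_pow_of_pow_eq_one hz
      rw [map_pow, pow_apply_root g (ha ζ₁ hζ₁.pow_eq_one) M]
      congr 1
      conv_rhs => rw [← pow_one ζ₁]
      exact (rootPow_eq_iff_modEq hζ₁ _ _ hp.pos).2 ha1)
  have h3 : (b ^ M) ^ i ≡ 1 [MOD p] := by
    have h5 := hi ζ₂ hζ₂.pow_eq_one
    rw [map_pow, map_pow, ← pow_mul, pow_apply_root (α g) (hb ζ₂ hζ₂.pow_eq_one)] at h5
    rw [← pow_mul]
    exact (rootPow_eq_iff_modEq hζ₂ _ _ hp.pos).1 (by rw [h5, pow_one])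
  have h4 : (b ^ M) ^ l ≡ 1 [MOD p] := by
    have h5 := Nat.ModEq.pow_totient hbc
    rw [Nat.totient_prime hp, hM, mul_comm, pow_mul] at h5
    exact h5
  rw [← ZMod.natCast_eq_natCast_iff] at h3 h4 ⊢
  push_cast at h3 h4 ⊢
  have h6 := pow_gcd_eq_one.2 ⟨h3, h4⟩
  have h7 : i.gcd l = 1 := ((Nat.Prime.coprime_iff_not_dvd hl).2 (fun h => by
    have := Nat.le_of_dvd hi0 h
    omega)).symm
  rwa [h7, pow_one] at h6

end

end Vale.Agent.P024.H157.ALL
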